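import Vale.Agent.P179.Sgn.Defs

/-!
# Module CNT of the signature project: the number of basic idempotents is at most `lB`
-/

namespace Vale.P179.H633

open Module Vale.P179.H175 Vale.P179.Sgn

section

variable {K B : Type*} [Field K] [Ring B] [Algebra K B]

/-- the map `x ↦ b x e` on `B ⧸ J` for a two-sided ideal `J` -/
noncomputable def opJ (J : Submodule K B) (hL : ∀ (a : B), ∀ j ∈ J, a * j ∈ J)
    (hR : ∀ (a : B), ∀ j ∈ J, j * a ∈ J) (b e : B) : (B ⧸ J) →ₗ[K] (B ⧸ J) :=
  J.mapQ J (LinearMap.mulLeft K b ∘ₗ LinearMap.mulRight K e) fun x hx => by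
    simp only [Submodule.mem_comap, LinearMap.comp_apply, LinearMap.mulLeft_apply,
      LinearMap.mulRight_apply]
    exact hL _ _ (hR _ _ hx)

variable {J : Submodule K B} {hL : ∀ (a : B), ∀ j ∈ J, a * j ∈ J}
    {hR : ∀ (a : B), ∀ j ∈ J, j * a ∈ J}

@[simp] theorem opJ_mk (b e x : B) :
    opJ J hL hR b e (Submodule.Quotient.mk x) = Submodule.Quotient.mk (b * (x * e)) := rfl

theorem opJ_mul (b b' e e' : B) :
    opJ J hL hR b e * opJ J hL hR b' e' = opJ J hL hR (b * b') (e' * e) := by
  apply LinearMap.ext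
  intro x
  obtain ⟨x, rfl⟩ := Submodule.Quotient.mk_surjective _ x
  rw [Module.End.mul_apply, opJ_mk, opJ_mk, opJ_mk]
  congr 1
  simp only [mul_assoc]

/-- the trace function attached to `e` -/
noncomputable def trJ (J : Submodule K B) (hL : ∀ (a : B), ∀ j ∈ J, a * j ∈ J)
    (hR : ∀ (a : B), ∀ j ∈ J, j * a ∈ J) (e : B) : B →ₗ[K] K where
  toFun b := LinearMap.trace K (B ⧸ J) (opJ J hL hR b e)
  map_add' a b := by
    rw [← map_add]
    congr 1
    apply LinearMap.ext
    intro x
    obtain ⟨x, rfl⟩ := Submodule.Quotient.mk_surjective _ x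
    rw [LinearMap.add_apply, opJ_mk, opJ_mk, opJ_mk, add_mul]
    rfl
  map_smul' c b := by
    rw [RingHom.id_apply, ← map_smul]
    congr 1
    apply LinearMap.ext
    intro x
    obtain ⟨x, rfl⟩ := Submodule.Quotient.mk_surjective _ x
    rw [LinearMap.smul_apply, opJ_mk, opJ_mk, smul_mul_assoc]
    rfl

theorem trJ_comm {e : B} (he : e * e = e) (a b : B) :
    trJ J hL hR e (a * b) = trJ J hL hR e (b * a) := by
  change LinearMap.trace K (B ⧸ J) (opJ J hL hR (a * b) e) =
    LinearMap.trace K (B ⧸ J) (opJ J hL hR (b * a) e)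
  have h1 : opJ J hL hR (a * b) e = opJ J hL hR a e * opJ J hL hR b e := by
    rw [opJ_mul, he]
  have h2 : opJ J hL hR (b * a) e = opJ J hL hR b e * opJ J hL hR a e := by
    rw [opJ_mul, he]
  rw [h1, h2, LinearMap.trace_mul_comm]

theorem opJ_pow {e : B} (he : e * e = e) (b : B) (n : ℕ) :
    opJ J hL hR b e ^ (n + 1) = opJ J hL hR (b ^ (n + 1)) e := by
  induction n with
  | zero => simp
  | succ n ih => rw [pow_succ, ih, opJ_mul, he, ← pow_succ]

theorem trJ_nil [FiniteDimensional K B] {e : B} (he : e * e = e) {b : B} (hb : IsNilpotent b) :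
    trJ J hL hR e b = 0 := by
  obtain ⟨n, hn⟩ := hb
  have h1 : IsNilpotent (opJ J hL hR b e) := by
    refine ⟨n + 1, ?_⟩
    rw [opJ_pow he, pow_succ, hn, zero_mul]
    apply LinearMap.ext
    intro x
    obtain ⟨x, rfl⟩ := Submodule.Quotient.mk_surjective _ x
    rw [opJ_mk, zero_mul]
    rfl
  exact (LinearMap.isNilpotent_trace_of_isNilpotent h1).eq_zero

end

theorem cnt : CNT := by
  intro K B _ _ _ _ W J n E hB
  have hL := hB.mulL
  have hR := hB.mulR
  have hT : ∀ j, ∀ x ∈ TB K B, trJ J hL hR (E j) x = 0 := by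
    intro j x hx
    have : TB K B ≤ LinearMap.ker (trJ J hL hR (E j)) := by
      unfold TB
      rw [Submodule.span_le]
      rintro y (hy | ⟨a, b, rfl⟩)
      · exact trJ_nil (hB.idem j) hy
      · change trJ J hL hR (E j) (a * b - b * a) = 0
        rw [map_sub, trJ_comm (hB.idem j) a b, sub_self]
    exact this hx
  have hoff : ∀ i j, i ≠ j → trJ J hL hR (E j) (E i) = 0 := by
    intro i j hij
    have h0 : opJ J hL hR (E i) (E j) = 0 := by
      apply LinearMap.ext
      intro x
      obtain ⟨x, rfl⟩ := Submodule.Quotient.mk_surjective _ x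
      rw [opJ_mk, LinearMap.zero_apply, Submodule.Quotient.mk_eq_zero, ← mul_assoc]
      exact hB.off i j hij x
    change LinearMap.trace K (B ⧸ J) (opJ J hL hR (E i) (E j)) = 0
    rw [h0, map_zero]
  have hdiag : ∀ j, trJ J hL hR (E j) (E j) = 1 := by
    intro j
    set v : B ⧸ J := Submodule.Quotient.mk (E j) with hv
    have hv0 : v ≠ 0 := by
      intro h
      rw [hv, Submodule.Quotient.mk_eq_zero] at h
      exact hB.ne j h
    have hproj : LinearMap.IsProj (Submodule.span K {v}) (opJ J hL hR (E j) (E j)) := by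
      constructor
      · intro x
        obtain ⟨x, rfl⟩ := Submodule.Quotient.mk_surjective _ x
        rw [opJ_mk]
        obtain ⟨c, hc⟩ := hB.diag j x
        rw [Submodule.mem_span_singleton]
        refine ⟨c, ?_⟩
        rw [hv, ← Submodule.Quotient.mk_smul, eq_comm, Submodule.Quotient.eq, ← mul_assoc]
        exact hc
      · intro x hx
        obtain ⟨c, rfl⟩ := Submodule.mem_span_singleton.1 hx
        rw [map_smul, hv, opJ_mk, hB.idem j, hB.idem j]
    change LinearMap.trace K (B ⧸ J) (opJ J hL hR (E j) (E j)) = 1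
    rw [hproj.trace, finrank_span_singleton hv0, Nat.cast_one]
  -- the classes of the `E j` are linearly independent
  have hinj : Function.Injective ((TB K B).mkQ ∘ₗ Fintype.linearCombination K E) := by
    rw [injective_iff_map_eq_zero]
    intro c hc
    rw [LinearMap.comp_apply, Submodule.mkQ_apply, Submodule.Quotient.mk_eq_zero] at hc
    funext i
    have h1 := hT i _ hc
    rw [Fintype.linearCombination_apply, map_sum] at h1
    rw [Finset.sum_eq_single i] at h1
    · rw [map_smul, hdiag, smul_eq_mul, mul_one] at h1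
      exact h1
    · intro j _ hj
      rw [map_smul, hoff j i hj, smul_zero]
    · intro h
      exact absurd (Finset.mem_univ i) h
  have := LinearMap.finrank_le_finrank_of_injective hinj
  simpa [lB] using this

end Vale.P179.H633
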