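import Vale.Agent.P179.Sgn.Defs
import Vale.Agent.P179.H175.Gr1

/-!
# Module S1 of the signature project: the Hasse–Schmidt derivation (Newton iteration)
-/

namespace Vale.P179.H633

open Module Vale.P179.H175 Vale.P179.Sgn PowerSeries
open scoped TensorProduct

/-! ## order of a power series -/

section ord

variable {B : Type*} [Ring B]

/-- the coefficients of degree `< n` vanish -/
def Ord (n : ℕ) (x : B⟦X⟧) : Prop := ∀ m < n, coeff m x = 0

theorem Ord.add {n : ℕ} {x y : B⟦X⟧} (hx : Ord n x) (hy : Ord n y) : Ord n (x + y) :=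
  fun m hm => by rw [map_add, hx m hm, hy m hm, add_zero]

theorem Ord.neg {n : ℕ} {x : B⟦X⟧} (hx : Ord n x) : Ord n (-x) :=
  fun m hm => by rw [map_neg, hx m hm, neg_zero]

theorem Ord.sub {n : ℕ} {x y : B⟦X⟧} (hx : Ord n x) (hy : Ord n y) : Ord n (x - y) :=
  fun m hm => by rw [map_sub, hx m hm, hy m hm, sub_zero]

theorem Ord.sum {n : ℕ} {ι : Type*} {S : Finset ι} {x : ι → B⟦X⟧} (hx : ∀ i ∈ S, Ord n (x i)) :
    Ord n (∑ i ∈ S, x i) :=
  fun m hm => by rw [map_sum]; exact Finset.sum_eq_zero fun i hi => hx i hi m hm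

theorem Ord.mono {n n' : ℕ} {x : B⟦X⟧} (hx : Ord n x) (h : n' ≤ n) : Ord n' x :=
  fun m hm => hx m (by omega)

theorem Ord.mul {n n' : ℕ} {x y : B⟦X⟧} (hx : Ord n x) (hy : Ord n' y) : Ord (n + n') (x * y) := by
  intro m hm
  rw [coeff_mul]
  refine Finset.sum_eq_zero fun p hp => ?_
  have hp' : p.1 + p.2 = m := by simpa using hp
  by_cases h : p.1 < n
  · rw [hx _ h, zero_mul]
  · rw [hy _ (by omega), mul_zero]

theorem Ord.zero_left (x : B⟦X⟧) : Ord 0 x := fun m hm => by omega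

theorem Ord.mul_left {n : ℕ} {x y : B⟦X⟧} (hy : Ord n y) : Ord n (x * y) := by
  have := (Ord.zero_left x).mul hy
  rwa [zero_add] at this

theorem Ord.mul_right {n : ℕ} {x y : B⟦X⟧} (hx : Ord n x) : Ord n (x * y) := by
  have := hx.mul (Ord.zero_left y)
  rwa [add_zero] at this

end ord

/-! ## balanced maps and the separability element -/

section

variable {k A B Γ : Type} [Field k] [Ring A] [Algebra k A] [Ring B] [Algebra k B]
  [Group Γ] [Fintype Γ] (D : KData k A B Γ)

theorem sep_apply {M : Type*} [AddCommGroup M] [Module k M] (β : B →ₗ[k] B →ₗ[k] M)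
    (hβ : ∀ (x y : B) (h : A), β (x * D.ι h) y = β x (D.ι h * y)) (b : B) :
    ∑ i, β (b * D.s i) (D.t i) = ∑ i, β (D.s i) (D.t i * b) := by
  have h1 := D.sep b
  have h2 : Submodule.span k {z : B ⊗[k] B | ∃ (x y : B) (h : A),
      z = (x * D.ι h) ⊗ₜ[k] y - x ⊗ₜ[k] (D.ι h * y)} ≤ LinearMap.ker (TensorProduct.lift β) := by
    rw [Submodule.span_le]
    rintro z ⟨x, y, h, rfl⟩
    change TensorProduct.lift β _ = 0
    rw [map_sub, TensorProduct.lift.tmul, TensorProduct.lift.tmul, hβ, sub_self]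
  have h3 := h2 h1
  rw [LinearMap.mem_ker, map_sub, map_sum, map_sum, sub_eq_zero] at h3
  simpa only [TensorProduct.lift.tmul] using h3

/-! ## the automorphism of the local algebra -/

/-- one homogeneous piece -/
noncomputable def sgPiece (ι : A →ₐ[k] B) (w : ℕ) : A →ₗ[k] B⟦X⟧ where
  toFun h := PowerSeries.mk fun n => (Nat.choose w n : k) • ι h
  map_add' a b := by
    ext n
    rw [coeff_mk, map_add, map_add, coeff_mk, coeff_mk, smul_add]
  map_smul' c a := by
    ext n
    rw [coeff_mk, map_smul, RingHom.id_apply]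
    rw [PowerSeries.coeff_smul, coeff_mk, smul_comm]

theorem coeff_sgPiece (ι : A →ₐ[k] B) (w n : ℕ) (h : A) :
    coeff n (sgPiece ι w h) = (Nat.choose w n : k) • ι h := by
  exact coeff_mk n fun n => (Nat.choose w n : k) • ι h

theorem exists_sigma (ι : A →ₐ[k] B) {W : ℚ → Submodule k A} (hW : GrAlg W) (M : ℕ)
    (hM : 0 < M)
    (supp : ∀ r : ℚ, (∀ w : ℕ, w < M → r ≠ w) → W r = ⊥) :
    ∃ σ : A →ₐ[k] B⟦X⟧, ∀ (w n : ℕ) (h : A), h ∈ W w →
      coeff n (σ h) = (Nat.choose w n : k) • ι h := by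
  classical
  let σ : A →ₗ[k] B⟦X⟧ := ∑ w ∈ Finset.range M, sgPiece ι w ∘ₗ cpt W w
  have hσ : ∀ (w n : ℕ) (h : A), h ∈ W w → coeff n (σ h) = (Nat.choose w n : k) • ι h := by
    intro w n h hh
    have e1 : σ h = ∑ w ∈ Finset.range M, sgPiece ι w (cpt W w h) := by
      simp [σ, LinearMap.sum_apply]
    rw [e1, map_sum]
    by_cases hw : w < M
    · rw [Finset.sum_eq_single w]
      · rw [cpt_of_mem hW.int hh, coeff_sgPiece]
      · intro v _ hv
        rw [cpt_of_mem_ne hW.int hh (by exact_mod_cast hv.symm), map_zero, map_zero]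
      · intro h'
        exact absurd (Finset.mem_range.2 hw) h'
    · have h0 : h = 0 := by
        have := supp w (fun v hv hvw => hw (by
          have : w = v := by exact_mod_cast hvw
          omega))
        rw [this] at hh
        simpa using hh
      subst h0
      simp
  -- induction on homogeneous elements of natural degree
  have hind : ∀ (P : A → Prop), (∀ (w : ℕ) (h : A), h ∈ W w → P h) →
      (∀ x y, P x → P y → P (x + y)) → ∀ x, P x := by
    intro P h1 h2 x
    obtain ⟨S, -, hS⟩ := sum_cpt_finsupp hW.int x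
    rw [← hS]
    refine Finset.sum_induction _ P h2 ?_ ?_
    · exact h1 0 0 (Submodule.zero_mem _)
    · intro r _
      by_cases hr : ∃ w : ℕ, w < M ∧ r = w
      · obtain ⟨w, -, rfl⟩ := hr
        exact h1 w _ (cpt_mem hW.int _ _)
      · have h3 := supp r (fun w hw h => hr ⟨w, hw, h⟩)
        have h4 := cpt_mem hW.int r x
        rw [h3] at h4
        have h5 : cpt W r x = 0 := by simpa using h4
        rw [h5]
        exact h1 0 0 (Submodule.zero_mem _)
  have hone : σ 1 = 1 := by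
    ext n
    have h1 : (1 : A) ∈ W (0 : ℕ) := by
      have := hW.one
      simpa using this
    rw [hσ 0 n 1 h1, map_one]
    rcases n with _ | n
    · simp
    · rw [Nat.choose_eq_zero_of_lt (by omega), coeff_one, if_neg (by omega)]
      simp
  have hmul : ∀ x y, σ (x * y) = σ x * σ y := by
    intro x y
    refine hind (fun x => σ (x * y) = σ x * σ y) ?_ ?_ x
    · intro a x hx
      refine hind (fun y => σ (x * y) = σ x * σ y) ?_ ?_ y
      · intro b y hy
        ext n
        have hxy : x * y ∈ W ((a + b : ℕ) : ℚ) := by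
          have := hW.mul hx hy
          push_cast
          exact this
        rw [hσ (a + b) n _ hxy, coeff_mul, Nat.add_choose_eq, Nat.cast_sum, Finset.sum_smul,
          map_mul]
        refine Finset.sum_congr rfl fun p _ => ?_
        rw [hσ a _ x hx, hσ b _ y hy, smul_mul_smul_comm, Nat.cast_mul]
      · intro y y' h h'
        rw [mul_add, map_add, h, h', map_add, mul_add]
    · intro x x' h h'
      rw [add_mul, map_add, h, h', map_add, add_mul]
  exact ⟨AlgHom.ofLinearMap σ hone hmul, hσ⟩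

/-! ## Newton iteration -/

/-- `φ` is a `σ`-twisted bimodule map, multiplicative modulo `X^n` -/
structure Good (σ : A →ₐ[k] B⟦X⟧) (n : ℕ) (φ : B →ₗ[k] B⟦X⟧) : Prop where
  left : ∀ a b, φ (D.ι a * b) = σ a * φ b
  right : ∀ b a, φ (b * D.ι a) = φ b * σ a
  one : φ 1 = 1
  id : ∀ b, coeff 0 (φ b) = b
  mul : ∀ b b', Ord n (φ (b * b') - φ b * φ b')

variable {D}

theorem step {σ : A →ₐ[k] B⟦X⟧} {n : ℕ} (hn : 1 ≤ n) {φ : B →ₗ[k] B⟦X⟧} (h : Good D σ n φ) :
    ∃ φ' : B →ₗ[k] B⟦X⟧, Good D σ (n + 1) φ' ∧ ∀ b, Ord n (φ' b - φ b) := by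
  classical
  -- the bilinear maps
  let μ : B⟦X⟧ →ₗ[k] B⟦X⟧ →ₗ[k] B⟦X⟧ := LinearMap.mul k B⟦X⟧
  let c : B →ₗ[k] B →ₗ[k] B⟦X⟧ := LinearMap.mk₂ k (fun x y => φ (x * y) - φ x * φ y)
    (fun x x' y => by simp only [add_mul, map_add]; abel)
    (fun r x y => by simp only [smul_mul_assoc, map_smul, smul_sub])
    (fun x y y' => by simp only [mul_add, map_add]; abel)
    (fun r x y => by simp only [mul_smul_comm, map_smul, smul_sub])
  have hc : ∀ x y, c x y = φ (x * y) - φ x * φ y := fun x y => rfl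
  have hcO : ∀ x y, Ord n (c x y) := fun x y => h.mul x y
  have hcbal : ∀ (x y : B) (a : A), c (x * D.ι a) y = c x (D.ι a * y) := by
    intro x y a
    rw [hc, hc, h.right, h.left, mul_assoc, mul_assoc]
  have hcr : ∀ (x y : B) (a : A), c x (y * D.ι a) = c x y * σ a := by
    intro x y a
    rw [hc, hc, ← mul_assoc, h.right, h.right, sub_mul, mul_assoc (φ x)]
  have hcoc : ∀ x y z, c (x * y) z + c x y * φ z = c x (y * z) + φ x * c y z := by
    intro x y z
    simp only [hc, mul_assoc x y z]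
    noncomm_ring
  -- e
  let e : B → B⟦X⟧ := fun b => ∑ i, c (b * D.s i) (D.t i)
  have heO : ∀ b, Ord n (e b) := fun b => Ord.sum fun i _ => hcO _ _
  let φ1 : B →ₗ[k] B⟦X⟧ :=
    ∑ i, (LinearMap.mulRight k (φ (D.t i))) ∘ₗ φ ∘ₗ LinearMap.mulRight k (D.s i)
  have hφ1 : ∀ b, φ1 b = ∑ i, φ (b * D.s i) * φ (D.t i) := by
    intro b
    simp [φ1, LinearMap.sum_apply]
  have hφ1e : ∀ b, φ1 b = φ b - e b := by
    intro b
    have h1 : e b = φ b - φ1 b := by
      simp only [e, hc, hφ1, Finset.sum_sub_distrib]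
      congr 1
      rw [← map_sum]
      congr 1
      simp only [mul_assoc]
      rw [← Finset.mul_sum, D.st, mul_one]
    rw [h1]; abel
  have hφ1l : ∀ a b, φ1 (D.ι a * b) = σ a * φ1 b := by
    intro a b
    rw [hφ1, hφ1, Finset.mul_sum]
    refine Finset.sum_congr rfl fun i _ => ?_
    rw [mul_assoc, h.left, mul_assoc]
  have hφ1r : ∀ b a, φ1 (b * D.ι a) = φ1 b * σ a := by
    intro b a
    let β : B →ₗ[k] B →ₗ[k] B⟦X⟧ := (μ.compl₂ φ) ∘ₗ φ ∘ₗ LinearMap.mulLeft k b
    have hβ : ∀ x y, β x y = φ (b * x) * φ y := fun x y => rfl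
    have h1 := sep_apply D β (fun x y a => by
      rw [hβ, hβ, ← mul_assoc, h.right, h.left, mul_assoc]) (D.ι a)
    simp only [hβ] at h1
    rw [hφ1, hφ1, Finset.sum_mul]
    have h2 : ∀ i, φ (b * D.ι a * D.s i) * φ (D.t i) = φ (b * (D.ι a * D.s i)) * φ (D.t i) :=
      fun i => by rw [mul_assoc]
    simp only [h2]
    rw [h1]
    refine Finset.sum_congr rfl fun i _ => ?_
    rw [h.right, mul_assoc]
  set κ : B⟦X⟧ := e 1 with hκ
  have hκO : Ord n κ := heO 1
  set u : B⟦X⟧ := φ1 1 with hu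
  have huκ : u = 1 - κ := by rw [hu, hφ1e, h.one]
  have huσ : ∀ a, σ a * u = u * σ a := by
    intro a
    rw [hu, ← hφ1l, ← hφ1r, mul_one, one_mul]
  have hu0 : constantCoeff u = ((1 : Bˣ) : B) := by
    rw [← coeff_zero_eq_constantCoeff_apply, huκ, map_sub, hκO 0 (by omega), sub_zero,
      coeff_zero_eq_constantCoeff_apply, map_one]
    rfl
  set v : B⟦X⟧ := invOfUnit u 1 with hv
  have huv : u * v = 1 := mul_invOfUnit u 1 hu0
  have hvu : v * u = 1 := invOfUnit_mul u 1 hu0
  have hvσ : ∀ a, σ a * v = v * σ a := by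
    intro a
    calc σ a * v = v * u * (σ a * v) := by rw [hvu, one_mul]
      _ = v * (u * σ a) * v := by noncomm_ring
      _ = v * (σ a * u) * v := by rw [huσ]
      _ = v * σ a * (u * v) := by noncomm_ring
      _ = v * σ a := by rw [huv, mul_one]
  have hvκ : v = 1 + κ * v := by
    have : (1 - κ) * v = 1 := by rw [← huκ]; exact huv
    rw [sub_mul, one_mul, sub_eq_iff_eq_add] at this
    exact this
  let φ2 : B →ₗ[k] B⟦X⟧ := LinearMap.mulRight k v ∘ₗ φ1
  have hφ2 : ∀ b, φ2 b = φ1 b * v := fun b => rfl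
  -- the error terms
  have hclose : ∀ b, Ord n (φ2 b - φ b) := by
    intro b
    have : φ2 b - φ b = φ b * (κ * v) - e b * v := by
      rw [hφ2, hφ1e]
      conv_lhs => rw [sub_mul]
      nth_rewrite 1 [hvκ]
      noncomm_ring
    rw [this]
    exact ((hκO.mul_right).mul_left).sub (heO b).mul_right
  -- identities for c
  have hid1 : ∀ b, ∑ i, c b (D.s i) * φ (D.t i) = φ b * κ - e b := by
    intro b
    have h1 : ∑ i, (c (b * D.s i) (D.t i) + c b (D.s i) * φ (D.t i)) =
        ∑ i, (c b (D.s i * D.t i) + φ b * c (D.s i) (D.t i)) :=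
      Finset.sum_congr rfl fun i _ => hcoc _ _ _
    rw [Finset.sum_add_distrib, Finset.sum_add_distrib, ← map_sum, D.st, ← Finset.mul_sum] at h1
    have h2 : c b 1 = 0 := by rw [hc, mul_one, h.one, mul_one, sub_self]
    have h3 : κ = ∑ i, c (D.s i) (D.t i) := by simp only [hκ, e, one_mul]
    rw [h2, zero_add, ← h3] at h1
    rw [← h1]
    simp only [e]
    abel
  have hid2 : ∀ b b', c b b' - e (b * b') = ∑ i, c b (D.s i) * φ (D.t i * b') - φ b * e b' := by
    intro b b'
    have h1 : ∑ i, (c (b * (b' * D.s i)) (D.t i) + c b (b' * D.s i) * φ (D.t i)) =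
        ∑ i, (c b (b' * D.s i * D.t i) + φ b * c (b' * D.s i) (D.t i)) :=
      Finset.sum_congr rfl fun i _ => hcoc _ _ _
    rw [Finset.sum_add_distrib, Finset.sum_add_distrib, ← Finset.mul_sum, ← map_sum] at h1
    have h2 : ∑ i, b' * D.s i * D.t i = b' := by
      simp only [mul_assoc]
      rw [← Finset.mul_sum, D.st, mul_one]
    have h3 : ∑ i, c (b * (b' * D.s i)) (D.t i) = e (b * b') := by
      simp only [e, mul_assoc]
    let β : B →ₗ[k] B →ₗ[k] B⟦X⟧ := (μ.compl₂ φ) ∘ₗ (c b)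
    have hβ : ∀ x y, β x y = c b x * φ y := fun x y => rfl
    have h4 := sep_apply D β (fun x y a => by
      rw [hβ, hβ, hcr, h.left, mul_assoc]) b'
    simp only [hβ] at h4
    rw [h2, h3, h4] at h1
    have h5 : ∑ i, c (b' * D.s i) (D.t i) = e b' := rfl
    rw [h5] at h1
    have h6 : c b b' = e (b * b') + ∑ i, c b (D.s i) * φ (D.t i * b') - φ b * e b' := by
      rw [h1]; abel
    rw [h6]; abel
  have hid3 : ∀ b b', ∑ i, c b (D.s i) * φ (D.t i * b') =
      (φ b * κ - e b) * φ b' + ∑ i, c b (D.s i) * c (D.t i) b' := by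
    intro b b'
    rw [← hid1, Finset.sum_mul, ← Finset.sum_add_distrib]
    refine Finset.sum_congr rfl fun i _ => ?_
    rw [hc (D.t i) b']
    noncomm_ring
  have hE : ∀ b b', Ord (n + 1) (φ1 (b * b') - φ1 b * v * φ1 b') := by
    intro b b'
    set Q : B⟦X⟧ := ∑ i, c b (D.s i) * c (D.t i) b' with hQ
    have hQO : Ord (n + n) Q := Ord.sum fun i _ => (hcO _ _).mul (hcO _ _)
    have h1 : φ1 (b * b') = φ b * φ b' + ((φ b * κ - e b) * φ b' + Q - φ b * e b') := by
      rw [hφ1e, ← hid3, ← hid2, hc]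
      abel
    have h2 : v = 1 + κ + κ * (κ * v) := by
      conv_lhs => rw [hvκ, hvκ]
      noncomm_ring
    have h3 : φ1 (b * b') - φ1 b * v * φ1 b' =
        Q - e b * e b' + φ b * (κ * e b') + e b * (κ * φ b') - e b * (κ * e b')
          - (φ b - e b) * (κ * (κ * v)) * (φ b' - e b') := by
      rw [h1, hφ1e b, hφ1e b']
      nth_rewrite 1 [h2]
      noncomm_ring
    rw [h3]
    have hle : n + 1 ≤ n + n := by omega
    have t1 : Ord (n + n) (e b * e b') := (heO b).mul (heO b')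
    have t2 : Ord (n + n) (φ b * (κ * e b')) := (hκO.mul (heO b')).mul_left
    have t3 : Ord (n + n) (e b * (κ * φ b')) := (heO b).mul (hκO.mul_right)
    have t4 : Ord (n + n) (e b * (κ * e b')) := (heO b).mul (hκO.mul_right)
    have t5 : Ord (n + n) ((φ b - e b) * (κ * (κ * v)) * (φ b' - e b')) :=
      ((hκO.mul (hκO.mul_right)).mul_left).mul_right
    exact (((((hQO.sub t1).add t2).add t3).sub t4).sub t5).mono hle
  refine ⟨φ2, ⟨?_, ?_, ?_, ?_, ?_⟩, hclose⟩
  · intro a b
    rw [hφ2, hφ2, hφ1l, mul_assoc]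
  · intro b a
    rw [hφ2, hφ2, hφ1r, mul_assoc, hvσ, mul_assoc]
  · rw [hφ2, ← hu, huv]
  · intro b
    have := hclose b 0 (by omega)
    rw [map_sub, h.id, sub_eq_zero] at this
    exact this
  · intro b b'
    have : φ2 (b * b') - φ2 b * φ2 b' = (φ1 (b * b') - φ1 b * v * φ1 b') * v := by
      rw [hφ2, hφ2, hφ2]
      noncomm_ring
    rw [this]
    exact (hE b b').mul_right

/-- the starting map -/
theorem start (σ : A →ₐ[k] B⟦X⟧) (hσ : ∀ a, coeff 0 (σ a) = D.ι a) :
    ∃ φ : B →ₗ[k] B⟦X⟧, Good D σ 1 φ := by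
  classical
  let Cl : B →ₗ[k] B⟦X⟧ :=
    { toFun := fun b => C b
      map_add' := fun a b => map_add _ a b
      map_smul' := fun r b => by
        ext n
        rw [RingHom.id_apply, PowerSeries.coeff_smul, coeff_C, coeff_C]
        split_ifs <;> simp }
  let π : B →ₗ[k] B := LinearMap.id - D.ι.toLinearMap ∘ₗ D.ρ
  have hπ : ∀ b, π b = b - D.ι (D.ρ b) := fun b => rfl
  have hπl : ∀ a b, π (D.ι a * b) = D.ι a * π b := by
    intro a b
    rw [hπ, hπ, D.rel.left, map_mul, mul_sub]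
  have hπr : ∀ b a, π (b * D.ι a) = π b * D.ι a := by
    intro b a
    rw [hπ, hπ, D.rel.right, map_mul, sub_mul]
  let τ : Γ → Γ → B →ₗ[k] B⟦X⟧ := fun x y =>
    LinearMap.mulRight k (σ (D.γ y⁻¹)) ∘ₗ LinearMap.mulLeft k (σ (D.γ x)) ∘ₗ Cl ∘ₗ D.θ ∘ₗ
      LinearMap.mulRight k (D.ι (D.γ y)) ∘ₗ LinearMap.mulLeft k (D.ι (D.γ x⁻¹)) ∘ₗ π
  have hτ : ∀ x y b, τ x y b =
      σ (D.γ x) * C (D.θ (D.ι (D.γ x⁻¹) * π b * D.ι (D.γ y))) * σ (D.γ y⁻¹) :=
    fun x y b => rfl
  let φ : B →ₗ[k] B⟦X⟧ := σ.toLinearMap ∘ₗ D.ρ + ∑ x, ∑ y, τ x y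
  have hφ : ∀ b, φ b = σ (D.ρ b) + ∑ x, ∑ y, τ x y b := by
    intro b
    simp [φ, LinearMap.sum_apply, LinearMap.add_apply]
  have hspan : ∀ (P : A → Prop), (∀ g, P (D.γ g)) → (∀ a b, P a → P b → P (a + b)) →
      (∀ (r : k) a, P a → P (r • a)) → P 0 → ∀ a, P a := by
    intro P h1 h2 h3 h0 a
    have ha : a ∈ Submodule.span k (Set.range D.γ) := by rw [D.span]; trivial
    induction ha using Submodule.span_induction with
    | mem x hx => obtain ⟨g, rfl⟩ := hx; exact h1 g
    | zero => exact h0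
    | add x y _ _ hx hy => exact h2 x y hx hy
    | smul r x _ hx => exact h3 r x hx
  have hφl : ∀ a b, φ (D.ι a * b) = σ a * φ b := by
    intro a
    refine hspan (fun a => ∀ b, φ (D.ι a * b) = σ a * φ b) ?_ ?_ ?_ ?_ a
    · intro g b
      rw [hφ, hφ, D.rel.left, map_mul, mul_add]
      congr 1
      rw [Finset.mul_sum]
      refine Finset.sum_bij' (fun x _ => g⁻¹ * x) (fun x _ => g * x) (by simp) (by simp)
        (by simp) (by simp) ?_
      intro x _
      rw [Finset.mul_sum]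
      refine Finset.sum_congr rfl fun y _ => ?_
      rw [hτ, hτ, hπl]
      have e1 : D.ι (D.γ x⁻¹) * (D.ι (D.γ g) * π b) = D.ι (D.γ (g⁻¹ * x)⁻¹) * π b := by
        rw [← mul_assoc, ← map_mul, ← map_mul]
        congr 3
        group
      have e2 : σ (D.γ x) = σ (D.γ g) * σ (D.γ (g⁻¹ * x)) := by
        rw [← map_mul, ← map_mul]
        congr 2
        group
      rw [e1, e2]
      simp only [mul_assoc]
    · intro a a' h h' b
      rw [map_add, add_mul, map_add, h, h', map_add, add_mul]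
    · intro r a h b
      rw [map_smul, smul_mul_assoc, map_smul, h, map_smul, smul_mul_assoc]
    · intro b
      rw [map_zero, zero_mul, map_zero, map_zero, zero_mul]
  have hφr : ∀ b a, φ (b * D.ι a) = φ b * σ a := by
    intro b a
    refine hspan (fun a => ∀ b, φ (b * D.ι a) = φ b * σ a) ?_ ?_ ?_ ?_ a b
    · intro g b
      rw [hφ, hφ, D.rel.right, map_mul, add_mul]
      congr 1
      rw [Finset.sum_mul]
      refine Finset.sum_congr rfl fun x _ => ?_
      rw [Finset.sum_mul]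
      refine Finset.sum_bij' (fun y _ => g * y) (fun y _ => g⁻¹ * y) (by simp) (by simp)
        (by simp) (by simp) ?_
      intro y _
      rw [hτ, hτ, hπr]
      have e1 : D.ι (D.γ x⁻¹) * (π b * D.ι (D.γ g)) * D.ι (D.γ y) =
          D.ι (D.γ x⁻¹) * π b * D.ι (D.γ (g * y)) := by
        rw [map_mul D.γ g y, map_mul D.ι]
        simp only [mul_assoc]
      have e2 : σ (D.γ y⁻¹) = σ (D.γ (g * y)⁻¹) * σ (D.γ g) := by
        rw [← map_mul, ← map_mul]
        congr 2
        group
      rw [e1, e2]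
      simp only [mul_assoc]
    · intro a a' h h' b
      rw [map_add, mul_add, map_add, h, h', map_add, mul_add]
    · intro r a h b
      rw [map_smul, mul_smul_comm, map_smul, h, map_smul, mul_smul_comm]
    · intro b
      rw [map_zero, mul_zero, map_zero, map_zero, mul_zero]
  have hφ1 : φ 1 = 1 := by
    have h1 : D.ρ 1 = 1 := by
      have := D.rel.ret 1
      rwa [map_one] at this
    have h2 : π 1 = 0 := by rw [hπ, h1, map_one, sub_self]
    rw [hφ, h1, map_one]
    have h3 : ∀ x y, τ x y 1 = 0 := by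
      intro x y
      rw [hτ, h2, mul_zero, zero_mul, map_zero, map_zero, mul_zero, zero_mul]
    simp [h3]
  have hφ0 : ∀ b, coeff 0 (φ b) = b := by
    intro b
    rw [hφ, map_add, hσ, map_sum]
    have h1 : ∀ x, coeff 0 (∑ y, τ x y b) = ∑ y, D.ι (D.γ x) *
        D.θ (D.ι (D.γ x⁻¹) * π b * D.ι (D.γ y)) * D.ι (D.γ y⁻¹) := by
      intro x
      rw [map_sum]
      refine Finset.sum_congr rfl fun y _ => ?_
      rw [hτ]
      have hσ' : ∀ a, constantCoeff (σ a) = D.ι a := fun a => by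
        rw [← coeff_zero_eq_constantCoeff_apply, hσ]
      rw [coeff_zero_eq_constantCoeff_apply, map_mul, map_mul, hσ', hσ', constantCoeff_C]
    simp only [h1]
    rw [D.rel.hig, hπ]
    have h2 : D.ρ (b - D.ι (D.ρ b)) = 0 := by rw [map_sub, D.rel.ret, sub_self]
    rw [h2, map_zero]
    abel
  refine ⟨φ, hφl, hφr, hφ1, hφ0, ?_⟩
  intro b b' m hm
  have : m = 0 := by omega
  subst this
  rw [map_sub, hφ0, coeff_mul]
  simp [hφ0]

end

theorem s1 : S1 := by
  intro k A B Γ _ _ _ _ _ _ _ _ D e M c _ H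
  classical
  have hM : 0 < M := by
    obtain ⟨q, -, hq⟩ := H.hM
    omega
  obtain ⟨σ, hσ⟩ := exists_sigma D.ι H.basic.gr M hM H.supp
  have hσ0 : ∀ a, coeff 0 (σ a) = D.ι a := by
    intro a
    obtain ⟨S, -, hS⟩ := sum_cpt_finsupp H.basic.gr.int a
    rw [← hS, map_sum, map_sum, map_sum]
    refine Finset.sum_congr rfl fun r _ => ?_
    by_cases hr : ∃ w : ℕ, w < M ∧ r = w
    · obtain ⟨w, -, rfl⟩ := hr
      rw [hσ w 0 _ (cpt_mem H.basic.gr.int _ _)]
      simp
    · have h3 := H.supp r (fun w hw h => hr ⟨w, hw, h⟩)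
      have h4 := cpt_mem H.basic.gr.int r a
      rw [h3] at h4
      have h5 : cpt H.W r a = 0 := by simpa using h4
      rw [h5]
      simp
  obtain ⟨φ0, hφ0⟩ := start (D := D) σ hσ0
  -- the sequence
  let F : ℕ → {n : ℕ × (B →ₗ[k] B⟦X⟧) // 1 ≤ n.1 ∧ Good D σ n.1 n.2} := fun n => Nat.rec
    ⟨(1, φ0), le_rfl, hφ0⟩
    (fun _ s => ⟨(s.1.1 + 1, (step s.2.1 s.2.2).choose), by have := s.2.1; show 1 ≤ s.1.1 + 1; omega,
      (step s.2.1 s.2.2).choose_spec.1⟩) n
  have hF1 : ∀ n, (F n).1.1 = n + 1 := by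
    intro n
    induction n with
    | zero => rfl
    | succ n ih =>
      change (F n).1.1 + 1 = _
      rw [ih]
  have hFstep : ∀ n b, Ord (n + 1) ((F (n + 1)).1.2 b - (F n).1.2 b) := by
    intro n b
    have := (step (F n).2.1 (F n).2.2).choose_spec.2 b
    intro m hm
    exact this m (by rw [hF1 n]; exact hm)
  have hFgood : ∀ n, Good D σ (n + 1) (F n).1.2 := by
    intro n
    have := (F n).2.2
    rwa [hF1 n] at this
  have hstab : ∀ m n, m ≤ n → ∀ b, coeff m ((F n).1.2 b) = coeff m ((F m).1.2 b) := by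
    intro m n hmn b
    induction n, hmn using Nat.le_induction with
    | base => rfl
    | succ n hmn ih =>
      have := hFstep n b m (by omega)
      rw [map_sub, sub_eq_zero] at this
      rw [this, ih]
  refine ⟨{
    g := fun n =>
      { toFun := fun b => coeff n ((F n).1.2 b)
        map_add' := fun a b => by rw [map_add, map_add]
        map_smul' := fun r b => by rw [map_smul, PowerSeries.coeff_smul, RingHom.id_apply] }
    zero := ?_
    mul := ?_
    ext := ?_ }⟩
  · apply LinearMap.ext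
    intro b
    exact (hFgood 0).id b
  · intro n a b
    have h1 := (hFgood n).mul a b n (by omega)
    rw [map_sub, sub_eq_zero] at h1
    change coeff n ((F n).1.2 (a * b)) = ∑ i ∈ Finset.range (n + 1),
      coeff i ((F i).1.2 a) * coeff (n - i) ((F (n - i)).1.2 b)
    rw [h1, coeff_mul, Finset.Nat.sum_antidiagonal_eq_sum_range_succ_mk]
    refine Finset.sum_congr rfl fun i hi => ?_
    have hi' : i ≤ n := by
      have := Finset.mem_range.1 hi
      omega
    rw [hstab i n hi' a, hstab (n - i) n (by omega) b]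
  · intro w n h hh
    change coeff n ((F n).1.2 (D.ι h)) = _
    have h1 := (hFgood n).left h 1
    rw [mul_one, (hFgood n).one, mul_one] at h1
    rw [h1, hσ w n h hh]

end Vale.P179.H633
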